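import Vale.Agent.P260.H175.G4a

/-!
# P260, block G4 from blocks E2 and F2
-/

set_option linter.all false

namespace Vale.Agent.P260.H175

open scoped commutatorElement
open Subgroup

/-- Schur's theorem, for a subgroup centralised by a subgroup of finite index -/
theorem finite_comm {Q : Type} [Group Q] (D N : Subgroup Q) (hN : N.FiniteIndex)
    (h : ∀ g ∈ D, ∀ x ∈ N, g * x = x * g) : Finite (⁅D, D⁆ : Subgroup Q) := by
  have hf : Finite (commutatorSet D) := by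
    have hfq : Finite (D ⧸ N.subgroupOf D) := inferInstance
    have hsub : commutatorSet D ⊆ Set.range
        (fun p : (D ⧸ N.subgroupOf D) × (D ⧸ N.subgroupOf D) => ⁅p.1.out, p.2.out⁆) := by
      rintro _ ⟨a, b, rfl⟩
      refine ⟨(QuotientGroup.mk a, QuotientGroup.mk b), ?_⟩
      obtain ⟨z, hz⟩ := QuotientGroup.mk_out_eq_mul (N.subgroupOf D) a
      obtain ⟨w, hw⟩ := QuotientGroup.mk_out_eq_mul (N.subgroupOf D) b
      have hzc : ∀ g : D, g * z = z * g := fun g => Subtype.ext (h g g.2 _ z.2)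
      have hwc : ∀ g : D, g * w = w * g := fun g => Subtype.ext (h g g.2 _ w.2)
      simp only [hz, hw]
      have h1 : ∀ g : D, Commute g (z : D) := hzc
      have h2 : ∀ g : D, Commute g (w : D) := hwc
      rw [commutatorElement_def, commutatorElement_def, mul_inv_rev, mul_inv_rev]
      calc a * ↑z * (b * ↑w) * ((↑z)⁻¹ * a⁻¹) * ((↑w)⁻¹ * b⁻¹)
          = a * (↑z * (b * ↑w)) * (↑z)⁻¹ * a⁻¹ * ((↑w)⁻¹ * b⁻¹) := by group
        _ = a * ((b * ↑w) * ↑z) * (↑z)⁻¹ * a⁻¹ * ((↑w)⁻¹ * b⁻¹) := by rw [hzc]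
        _ = a * b * (↑w * a⁻¹) * (↑w)⁻¹ * b⁻¹ := by group
        _ = a * b * (a⁻¹ * ↑w) * (↑w)⁻¹ * b⁻¹ := by rw [hwc]
        _ = a * b * a⁻¹ * b⁻¹ := by group
    exact Set.Finite.to_subtype ((Set.finite_range _).subset hsub)
  have hc : Finite (_root_.commutator D) := inferInstance
  have he : ⁅D, D⁆ = (_root_.commutator D).map D.subtype := by
    rw [_root_.commutator_def, Subgroup.map_commutator, ← MonoidHom.range_eq_map,
      Subgroup.range_subtype]
  rw [he]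
  exact Finite.of_surjective (D.subtype.subgroupMap (_root_.commutator D))
    (MonoidHom.subgroupMap_surjective _ _)

/-- a subgroup with finite image modulo the residual -/
theorem p1_of_finite {G : Type} [Group G] {q : ℕ} [Fact q.Prime] (H : Subgroup G) [H.Normal]
    [H.FiniteIndex] [(RQ q H).Normal] (N₀ : Subgroup G)
    (h : Finite (N₀.map (QuotientGroup.mk' (RQ q H)))) :
    ∃ W : Subgroup G, W.Normal ∧ W ≤ H ∧ QPow q (W.relIndex H) ∧ N₀ ⊓ W ≤ RQ q H := by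
  classical
  have := Fintype.ofFinite (N₀.map (QuotientGroup.mk' (RQ q H)))
  choose c hc hcm using fun y : N₀.map (QuotientGroup.mk' (RQ q H)) => y.2
  obtain ⟨W, h1, h2, h3, h4⟩ := exists_of_finset (q := q) (H := H)
    ((Finset.univ.image c).filter fun x => x ∉ RQ q H) (fun x hx => (Finset.mem_filter.1 hx).2)
  refine ⟨W, h1, h2, h3, fun x hx => ?_⟩
  by_contra hxR
  have hle : RQ q H ≤ W := RQ_le_of h1 h2 h3
  have hxc := hcm ⟨QuotientGroup.mk' (RQ q H) x, x, hx.1, rfl⟩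
  set x' := c ⟨QuotientGroup.mk' (RQ q H) x, x, hx.1, rfl⟩ with hx'
  have hmem : x⁻¹ * x' ∈ RQ q H := by
    rw [← QuotientGroup.eq]
    exact hxc.symm
  have hx'W : x' ∈ W := by
    have := W.mul_mem hx.2 (hle hmem)
    rwa [mul_inv_cancel_left] at this
  have hx'R : x' ∉ RQ q H := fun hc' => hxR (by
    have := (RQ q H).mul_mem hc' ((RQ q H).inv_mem hmem)
    rwa [mul_inv_rev, inv_inv, mul_inv_cancel_left] at this)
  exact h4 x' (Finset.mem_filter.2 ⟨Finset.mem_image.2 ⟨_, Finset.mem_univ _, rfl⟩, hx'R⟩) hx'W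

end Vale.Agent.P260.H175

namespace Vale.Agent.P260

open scoped commutatorElement

/-- **Block G4** from blocks E2 and F2. -/
theorem blockG4_of (hE : BlockE2) (hF : BlockF2) : BlockG4 := by
  intro G _ hfg hFol r hr
  let I : Type := {x : ℕ × Subgroup G // x.1.Prime ∧ x.2.Normal ∧ x.2.FiniteIndex}
  have hI : ∀ i : I, Fact (i.1.1).Prime := fun i => ⟨i.2.1⟩
  have hIn : ∀ i : I, (i.1.2).Normal := fun i => i.2.2.1
  have hIf : ∀ i : I, (i.1.2).FiniteIndex := fun i => i.2.2.2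
  have hR : ∀ i : I, (RQ i.1.1 i.1.2).Normal := fun i => H175.RQ_normal
  have key : ∀ i : I, ∃ m ≤ r, ∃ (ρ : (G ⧸ RQ i.1.1 i.1.2) →* GL (Fin m) ℚ_[i.1.1])
      (N : Subgroup (G ⧸ RQ i.1.1 i.1.2)), N.Normal ∧ N.FiniteIndex ∧
      ∀ g, ρ g = 1 → ∀ x ∈ N, g * x = x * g := by
    intro i
    refine hE i.1.1 (G ⧸ RQ i.1.1 i.1.2) ?_ (i.1.2.map (QuotientGroup.mk' _)) ?_ ?_ ?_ r ?_
    · exact QuotientGroup.fg _
    · exact (hIn i).map _ (QuotientGroup.mk'_surjective _)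
    · refine ⟨?_⟩
      have h1 := Subgroup.index_map_dvd (H := i.1.2)
        (QuotientGroup.mk'_surjective (RQ i.1.1 i.1.2))
      exact fun h0 => (hIf i).index_ne_zero (Nat.eq_zero_of_zero_dvd (h0 ▸ h1))
    · exact H175.resQ_map _
    · exact fun L hL => H175.rank_quot hfg hr _ L hL
  choose m hm ρ N hNn hNf hN using key
  obtain ⟨H₁, hH₁n, hH₁f, d, hd⟩ := hF G hfg hFol I (fun i => ℚ_[i.1.1]) r m hm
    (fun i => (ρ i).comp (QuotientGroup.mk' (RQ i.1.1 i.1.2)))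
  refine ⟨H₁, hH₁n, hH₁f, d + 1, ?_⟩
  intro q hq H hHn hHf
  have i : I := ⟨(q, H), hq.out, hHn, hHf⟩
  have hRn : (RQ q H).Normal := H175.RQ_normal
  refine H175.p1_of_finite H _ ?_
  have h1 := H175.finite_comm (((derivedSeries H₁ d).map H₁.subtype).map
    (QuotientGroup.mk' (RQ q H))) (N ⟨(q, H), hq.out, hHn, hHf⟩)
    (hNf ⟨(q, H), hq.out, hHn, hHf⟩) ?_
  · rw [derivedSeries_succ, Subgroup.map_commutator, Subgroup.map_commutator]
    exact h1
  · rintro g ⟨_, ⟨x, hx, rfl⟩, rfl⟩ y hy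
    exact hN ⟨(q, H), hq.out, hHn, hHf⟩ _ (hd ⟨(q, H), hq.out, hHn, hHf⟩ x hx) y hy

end Vale.Agent.P260
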