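import Vale.Agent.P260.Spec4

/-!
# P260, block G4: group theory
-/

set_option linter.all false

namespace Vale.Agent.P260.H175

open scoped commutatorElement
open Subgroup

variable {G : Type} [Group G] {q : ℕ} [Fact q.Prime]

/-- a normal subgroup of finite index, given by powers, has `q`-power index -/
theorem qpow_of {H W : Subgroup G} [(W.subgroupOf H).Normal] [(W.subgroupOf H).FiniteIndex]
    (h : ∀ x ∈ H, ∃ k : ℕ, x ^ q ^ k ∈ W) : QPow q (W.relIndex H) := by
  have hp : IsPGroup q (H ⧸ W.subgroupOf H) := by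
    intro g
    obtain ⟨g, rfl⟩ := QuotientGroup.mk_surjective g
    obtain ⟨k, hk⟩ := h g g.2
    refine ⟨k, (QuotientGroup.eq_one_iff (g ^ q ^ k)).2 ?_⟩
    rw [Subgroup.mem_subgroupOf]
    simpa using hk
  obtain ⟨n, hn⟩ := IsPGroup.iff_card.1 hp
  exact ⟨n, hn⟩

theorem pow_mem {H W : Subgroup G} [(W.subgroupOf H).Normal] (h : QPow q (W.relIndex H)) :
    ∃ a : ℕ, ∀ x ∈ H, x ^ q ^ a ∈ W := by
  obtain ⟨a, ha⟩ := h
  refine ⟨a, fun x hx => ?_⟩
  have := Subgroup.pow_index_mem (W.subgroupOf H) ⟨x, hx⟩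
  rw [show (W.subgroupOf H).index = q ^ a from ha, Subgroup.mem_subgroupOf] at this
  simpa using this

/-- the core of a subgroup of the family defining the residual -/
theorem core {H W : Subgroup G} [H.Normal] [H.FiniteIndex] (hWH : W ≤ H)
    (hn : (W.subgroupOf H).Normal) (hq : QPow q (W.relIndex H)) :
    W.normalCore ≤ H ∧ QPow q (W.normalCore.relIndex H) := by
  obtain ⟨a, ha⟩ := pow_mem hq
  have hq0 : q ≠ 0 := (Fact.out : q.Prime).ne_zero
  have hfi : W.FiniteIndex := by
    refine ⟨?_⟩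
    rw [← Subgroup.relIndex_mul_index hWH]
    obtain ⟨b, hb⟩ := hq
    rw [hb]
    exact mul_ne_zero (pow_ne_zero _ hq0) Subgroup.FiniteIndex.index_ne_zero
  refine ⟨(Subgroup.normalCore_le W).trans hWH, qpow_of fun x hx => ⟨a, fun g => ?_⟩⟩
  rw [← conj_pow]
  exact ha _ (Normal.conj_mem inferInstance x hx g)

/-- elements outside the residual are outside a normal subgroup -/
theorem exists_of_notMem {H : Subgroup G} [H.Normal] [H.FiniteIndex] {x : G} (hx : x ∉ RQ q H) :
    ∃ W : Subgroup G, W.Normal ∧ W ≤ H ∧ QPow q (W.relIndex H) ∧ x ∉ W := by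
  rw [RQ, Subgroup.mem_sInf] at hx
  push Not at hx
  obtain ⟨W, ⟨h1, h2, h3⟩, h4⟩ := hx
  obtain ⟨h5, h6⟩ := core h1 h2 h3
  exact ⟨W.normalCore, inferInstance, h5, h6, fun h => h4 (Subgroup.normalCore_le W h)⟩

theorem RQ_le_of {H W : Subgroup G} (h : W.Normal) (h1 : W ≤ H) (h3 : QPow q (W.relIndex H)) :
    RQ q H ≤ W :=
  sInf_le ⟨h1, inferInstance, h3⟩

theorem RQ_le_self {H : Subgroup G} : RQ q H ≤ H :=
  sInf_le ⟨le_rfl, by rw [Subgroup.subgroupOf_self]; infer_instance,
    0, by rw [Subgroup.relIndex_self, pow_zero]⟩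

theorem RQ_normal {H : Subgroup G} [H.Normal] [H.FiniteIndex] : (RQ q H).Normal := by
  refine ⟨fun x hx g => ?_⟩
  by_contra hc
  obtain ⟨W, h1, h2, h3, h4⟩ := exists_of_notMem hc
  exact h4 (h1.conj_mem x (RQ_le_of h1 h2 h3 hx) g)

theorem qn_finiteIndex {H W : Subgroup G} [H.FiniteIndex] (h1 : W ≤ H)
    (h3 : QPow q (W.relIndex H)) : W.FiniteIndex := by
  refine ⟨?_⟩
  rw [← Subgroup.relIndex_mul_index h1]
  obtain ⟨b, hb⟩ := h3
  rw [hb]
  exact mul_ne_zero (pow_ne_zero _ (Fact.out : q.Prime).ne_zero) Subgroup.FiniteIndex.index_ne_zero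

/-- finitely many elements outside the residual are outside a normal subgroup -/
theorem exists_of_finset {H : Subgroup G} [H.Normal] [H.FiniteIndex] (S : Finset G)
    (hS : ∀ x ∈ S, x ∉ RQ q H) :
    ∃ W : Subgroup G, W.Normal ∧ W ≤ H ∧ QPow q (W.relIndex H) ∧ ∀ x ∈ S, x ∉ W := by
  classical
  induction S using Finset.induction_on with
  | empty => exact ⟨H, inferInstance, le_rfl, ⟨0, by rw [Subgroup.relIndex_self, pow_zero]⟩,
      by simp⟩
  | insert x S hx ih =>
    obtain ⟨W, h1, h2, h3, h4⟩ := ih fun y hy => hS y (Finset.mem_insert_of_mem hy)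
    obtain ⟨V, g1, g2, g3, g4⟩ := exists_of_notMem (hS x (Finset.mem_insert_self x S))
    have hW := qn_finiteIndex h2 h3
    have hV := qn_finiteIndex g2 g3
    obtain ⟨a, ha⟩ := pow_mem h3
    obtain ⟨b, hb⟩ := pow_mem g3
    refine ⟨W ⊓ V, inferInstance, inf_le_left.trans h2, qpow_of fun y hy => ⟨a + b, ?_, ?_⟩, ?_⟩
    · rw [pow_add, pow_mul]
      exact W.pow_mem (ha y hy) _
    · rw [add_comm, pow_add, pow_mul]
      exact V.pow_mem (hb y hy) _
    · intro y hy hc
      rcases Finset.mem_insert.1 hy with rfl | hy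
      · exact g4 hc.2
      · exact h4 y hy hc.1

/-- the image of `H` modulo its residual is residually `q` -/
theorem resQ_map (H : Subgroup G) [H.Normal] [H.FiniteIndex] [(RQ q H).Normal] :
    ResQ q (H.map (QuotientGroup.mk' (RQ q H))) := by
  intro g hg
  obtain ⟨g, hgm⟩ := g
  obtain ⟨h, hh, rfl⟩ := hgm
  have hnot : h ∉ RQ q H := by
    intro hc
    apply hg
    apply Subtype.ext
    exact (QuotientGroup.eq_one_iff h).2 hc
  obtain ⟨W, h1, h2, h3, h4⟩ := exists_of_notMem hnot
  have hle : RQ q H ≤ W := RQ_le_of h1 h2 h3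
  have hcm : (W.map (QuotientGroup.mk' (RQ q H))).comap (QuotientGroup.mk' (RQ q H)) = W := by
    rw [Subgroup.comap_map_eq, QuotientGroup.ker_mk', sup_eq_left.2 hle]
  have hWn : (W.map (QuotientGroup.mk' (RQ q H))).Normal :=
    h1.map _ (QuotientGroup.mk'_surjective _)
  obtain ⟨n, hn⟩ := h3
  refine ⟨(W.map (QuotientGroup.mk' (RQ q H))).subgroupOf _, inferInstance, ?_, n, ?_⟩
  · intro hc
    rw [Subgroup.mem_subgroupOf] at hc
    apply h4
    rw [← hcm]
    exact hc
  · rw [← hn, ← Subgroup.relIndex, ← Subgroup.relIndex_comap, hcm]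

/-- finitely generated groups have finitely many homomorphisms to finite groups -/
theorem finite_hom {L A : Type*} [Group L] [Group A] [Finite A] (h : Group.FG L) :
    Finite (L →* A) := by
  obtain ⟨S, hS⟩ := h.out
  refine Finite.of_injective (β := S → A) (fun f s => f s) fun f g hfg => ?_
  refine MonoidHom.eq_of_eqOn_dense (s := (S : Set L)) hS fun x hx => ?_
  exact congrFun hfg ⟨x, hx⟩

/-- the rank bound passes to quotients -/
theorem rank_quot (hG : Group.FG G) {r : ℕ} (hr : RankBound r G) (R : Subgroup G) [R.Normal]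
    (L : Subgroup (G ⧸ R)) (hL : L.FiniteIndex) :
    Nat.card (L →* Multiplicative (ZMod q)) ≤ q ^ r := by
  have hfi : (L.comap (QuotientGroup.mk' R)).FiniteIndex := ⟨by
    rw [Subgroup.index_comap_of_surjective _ (QuotientGroup.mk'_surjective R)]
    exact hL.index_ne_zero⟩
  have hfg : Group.FG (L.comap (QuotientGroup.mk' R)) := inferInstance
  have hq0 : NeZero q := ⟨(Fact.out : q.Prime).ne_zero⟩
  have : Finite (Multiplicative (ZMod q)) := inferInstanceAs (Finite (ZMod q))
  have hfin := finite_hom (A := Multiplicative (ZMod q)) hfg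
  refine le_trans ?_ (hr q (L.comap (QuotientGroup.mk' R)) hfi)
  refine Nat.card_le_card_of_injective
    (fun f => f.comp ((QuotientGroup.mk' R).subgroupComap L)) fun f g hfg => ?_
  ext x
  obtain ⟨y, hy⟩ := QuotientGroup.mk'_surjective R x.1
  have h1 : (QuotientGroup.mk' R).subgroupComap L ⟨y, by
      rw [Subgroup.mem_comap, hy]; exact x.2⟩ = x := Subtype.ext hy
  have := DFunLike.congr_fun hfg ⟨y, by rw [Subgroup.mem_comap, hy]; exact x.2⟩
  simp only [MonoidHom.comp_apply, h1] at this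
  exact this

end Vale.Agent.P260.H175
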